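import Vale.Agent.P057ZZ.All

namespace Vale.Agent.Results.P057.AAAErdos

theorem result :
    (∀ A : Set ℕ, (∀ a ∈ A, 0 < a) → ¬ Summable (fun a : A => (1 : ℝ) / ((a : ℕ) : ℝ)) →
      ∀ k : ℕ, 3 ≤ k → ∃ a d : ℕ, 0 < d ∧ ∀ i : ℕ, i < k → a + i * d ∈ A) ∧
    ∀ k : ℕ, 3 ≤ k → ∃ c : ℝ, 0 < c ∧ ∃ N₀ : ℕ, ∀ N : ℕ, N₀ ≤ N → ∀ A : Finset ℕ,
      A ⊆ Finset.Icc 1 N → (∀ a d : ℕ, 0 < d → ¬ ∀ i : ℕ, i < k → a + i * d ∈ A) →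
      (A.card : ℝ) ≤ N * Real.exp (-(Real.log N ^ c)) :=
  ⟨fun A _ hA k hk => P057FN.erdos_of P057ZZ.result_all k hk A hA, P057ZZ.result_all⟩

end Vale.Agent.Results.P057.AAAErdos
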